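import Crest.Agent.X262.Ufd9.Reg
import Crest.Agent.R271.UfdE_243
import Crest.Agent.X262.Alg44.Defs

/-!
# Row 262, G4 / UFD (helper9), part 2: the local rings of the total space are factorial

* `exists_exp` : the formal expansion at a point of a smooth model;
* `ufd_ser`    : any dimension; `ufdStmt : Alg44.UfdStmt`.
-/

set_option autoImplicit false

open PowerSeries IsLocalRing
open scoped KaehlerDifferential

noncomputable section

namespace Crest.Agent.X262.Ufd9

open Crest.Agent.X277 Crest.Agent.X277.Lef Crest.Agent.X277.AN.G1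
open Crest.Agent.R271.UFD243
open Crest.Agent.X262.Mv99 (serR oR)

variable {F : Type} [Field F] [Algebra ℂ F] {P : PModel ℂ F} {n : ℕ}

/-- the formal expansion at a point -/
theorem exists_exp (b : Module.Basis (Fin n) F Ω[F⁄ℂ]) (x : Pts P) :
    ∃ (z : Fin n → oR x) (h : oR x →+* MvPowerSeries (Fin n) ℂ),
      (∀ i, h (z i) = MvPowerSeries.X i) ∧
      (∀ c : ℂ, h ⟨algebraMap ℂ F c, (lp x).O.algebraMap_mem c⟩ = MvPowerSeries.C c) ∧
      ∀ f ∈ oR x, ∃ c : Fin n → oR x, f = algebraMap ℂ F (ev f x) + ∑ l, (c l : F) * z l := by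
  obtain ⟨i, hi⟩ := exists_pat x
  obtain ⟨g, hv, w, hw⟩ := exists_etale b hi
  have hg := LP.ne_zero_of_ne hv
  let _ : Algebra (Localization.Away g) (lp x).O := (tauO (A_le hi) hv).toAlgebra
  have : (RingHom.ker (tauV (A_le hi) hv)).IsPrime := RingHom.ker_isPrime _
  have : IsLocalization.AtPrime (lp x).O (RingHom.ker (tauV (A_le hi) hv)) := by
    refine ⟨fun ⟨c, hc⟩ => (LP.isUnit_iff _).2 hc, fun ⟨f, hf⟩ => ?_, fun {a c} h => ⟨1, ?_⟩⟩
    · obtain ⟨a, ha, c, hc, h1, h2⟩ := (mem_lp_iff hi).1 hf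
      refine ⟨(algebraMap (P.A i) _ ⟨a, ha⟩, ⟨algebraMap (P.A i) _ ⟨c, hc⟩, fun h => h1 ?_⟩),
        Subtype.ext ?_⟩
      · exact (tauV_alg (A_le hi) hv ⟨c, hc⟩).symm.trans h
      · show f * tau g hg _ = tau g hg _
        rw [tau_alg, tau_alg]
        exact h2
    · rw [tau_injective g hg (congrArg Subtype.val h)]
  obtain ⟨h, h1, h2, -⟩ := exists_expansion_local (MvPolynomial.aeval w) hw (tauV (A_le hi) hv) _
    rfl (lp x).O
  have hc := crd_of_etale hg hw hi hv
  have h3 : ∀ c : ℂ, h ⟨algebraMap ℂ F c, (lp x).O.algebraMap_mem c⟩ = MvPowerSeries.C c := by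
    intro c
    rw [← h2]
    exact congrArg h (Subtype.ext ((tau g hg).commutes c).symm)
  refine ⟨fun l => ⟨tau g hg (w l) - algebraMap ℂ F ((lp x).v (tau g hg (w l))),
    sub_mem (hc.mem l) ((lp x).O.algebraMap_mem _)⟩, h, fun l => ?_, h3, fun f hf => ?_⟩
  · have h4 := h1 l
    rw [MvPolynomial.aeval_X] at h4
    have h5 := h.map_sub (algebraMap (Localization.Away g) (lp x).O (w l))
      ⟨algebraMap ℂ F ((lp x).v (tau g hg (w l))), (lp x).O.algebraMap_mem _⟩
    rw [h4, h3] at h5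
    exact h5.trans (add_sub_cancel_left _ _)
  · obtain ⟨c, h4, h5⟩ := hc.gen f hf
    exact ⟨fun l => ⟨c l, h4 l⟩, h5⟩

theorem const_symm {k : Type*} [CommRing k] (g : (MvPowerSeries (Fin n) k)⟦X⟧) :
    MvPowerSeries.constantCoeff ((MvPowerSeries.finSuccEquiv k n).symm g) =
      MvPowerSeries.constantCoeff (coeff 0 g) := by
  have := MvPowerSeries.coeff_coeff_finSuccEquiv ((MvPowerSeries.finSuccEquiv k n).symm g)
    (k := 0) (x := 0)
  rw [AlgEquiv.apply_symm_apply, Finsupp.cons_zero_zero] at this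
  exact this.symm

theorem symm_mem {k : Type*} [Field k] {g : (MvPowerSeries (Fin n) k)⟦X⟧} (h0 : coeff 0 g = 0)
    (h1 : MvPowerSeries.constantCoeff (coeff 1 g) = 0) :
    (MvPowerSeries.finSuccEquiv k n).symm g ∈ vars (Fin (n + 1)) k ^ 2 := by
  obtain ⟨w, rfl⟩ : (X : (MvPowerSeries (Fin n) k)⟦X⟧) ∣ g := X_dvd_iff.2 (by simpa using h0)
  rw [map_mul, pow_two]
  refine Ideal.mul_mem_mul ((mem_span_range_X_iff _).2 ?_) ((mem_span_range_X_iff _).2 ?_)
  · rw [const_symm]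
    simp
  · rw [const_symm]
    rwa [coeff_succ_X_mul] at h1

/-- **the local rings of the total space are factorial** -/
theorem ufd_ser (b : Module.Basis (Fin n) F Ω[F⁄ℂ]) (x : Pts P) (A : Subring F⟦X⟧)
    (hA : A ≤ serR (oR x)) [IsNoetherianRing A] (hX : X ∈ A)
    (hC : ∀ c : ℂ, C (algebraMap ℂ F c) ∈ A) (hs : ∀ f, X * f ∈ A → f ∈ A)
    (ho : ∀ a ∈ oR x, ∃ f ∈ A, constantCoeff f = a)
    (hu : ∀ f ∈ A, ev (constantCoeff f) x ≠ 0 → ∃ g ∈ A, f * g = 1) :
    UniqueFactorizationMonoid A := by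
  obtain ⟨z, h, h1, h2, h3⟩ := exists_exp b x
  have h0 : ∀ f : A, constantCoeff (f : F⟦X⟧) ∈ oR x := fun f => by simpa using hA f.2 0
  let ε : A →+* ℂ := ((lp x).hom : (lp x).O →+* ℂ).comp
    ((constantCoeff.comp A.subtype).codRestrict (oR x) h0)
  have hε : ∀ f : A, IsUnit f ↔ ε f ≠ 0 := fun f =>
    ⟨fun hf => (hf.map ε).ne_zero, fun hf => by
      obtain ⟨g, hg, h4⟩ := hu f f.2 hf
      exact IsUnit.of_mul_eq_one ⟨g, hg⟩ (Subtype.ext h4)⟩
  have : IsLocalRing A := .of_isUnit_or_isUnit_one_sub_self fun a => by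
    rw [hε, hε, map_sub, map_one]
    by_cases h4 : ε a = 0
    · exact Or.inr (by simp [h4])
    · exact Or.inl h4
  have hm : ∀ f : A, f ∈ maximalIdeal A ↔ ε f = 0 := fun f => by
    rw [mem_maximalIdeal, mem_nonunits_iff, hε, not_not]
  let κ : ℂ →+* A := ((C (R := F)).comp (algebraMap ℂ F)).codRestrict A hC
  let _ : Algebra ℂ A := κ.toAlgebra
  have hκ : ∀ c, ε (κ c) = c := fun c => by
    change (lp x).v (constantCoeff (C (algebraMap ℂ F c))) = c
    rw [constantCoeff_C, (lp x).v_alg]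
  let μ : (oR x)⟦X⟧ →+* F⟦X⟧ := map (oR x).subtype
  have hμ : Function.Injective μ := map_injective _ Subtype.val_injective
  have hr : A ≤ μ.range := fun f hf => ⟨mk fun i => ⟨coeff i f, hA hf i⟩, by
    ext i
    rw [coeff_map, coeff_mk]
    rfl⟩
  let e : (oR x)⟦X⟧ ≃+* μ.range := RingEquiv.ofBijective μ.rangeRestrict
    ⟨fun a c hac => hμ (congrArg Subtype.val hac), μ.rangeRestrict_surjective⟩
  let L : A →+* (oR x)⟦X⟧ := (e.symm : μ.range →+* (oR x)⟦X⟧).comp (Subring.inclusion hr)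
  have hL : ∀ (f : A) i, (coeff i (L f) : oR x) = ⟨coeff i (f : F⟦X⟧), hA f.2 i⟩ := fun f i => by
    have h4 : μ (L f) = f := congrArg Subtype.val (e.apply_symm_apply (Subring.inclusion hr f))
    exact Subtype.ext (by simp only [← h4, μ, coeff_map]; rfl)
  have hh : ∀ a : oR x, MvPowerSeries.constantCoeff (h a) = ev (a : F) x := fun a => by
    obtain ⟨c, hc⟩ := h3 a a.2
    have h4 : a = ⟨algebraMap ℂ F (ev (a : F) x), (lp x).O.algebraMap_mem _⟩ + ∑ l, c l * z l :=
      Subtype.ext (by simpa using hc)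
    conv_lhs => rw [h4, map_add, h2]
    simp [h1]
  let H : A →ₐ[ℂ] MvPowerSeries (Fin (n + 1)) ℂ :=
    { ((MvPowerSeries.finSuccEquiv ℂ n).symm : _ →+* _).comp ((map h).comp L) with
      commutes' := fun c => by
        change (MvPowerSeries.finSuccEquiv ℂ n).symm (map h (L (κ c))) = MvPowerSeries.C c
        rw [AlgEquiv.symm_apply_eq, MvPowerSeries.finSuccEquiv_C]
        ext i : 1
        rw [coeff_map, hL, coeff_C]
        split_ifs with hi
        · rw [← h2]
          exact congrArg h (Subtype.ext (by subst hi; simp [κ]))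
        · rw [← h.map_zero]
          exact congrArg h (Subtype.ext (by simp [κ, coeff_C, hi])) }
  choose y hy hy0 using fun l => ho (z l) (z l).2
  let t : A := ⟨X, hX⟩
  let u : Fin n → A := fun l => ⟨y l, hy l⟩ - κ (ev (coeff 1 (y l)) x) * t
  have hu0 : ∀ l, constantCoeff (u l : F⟦X⟧) = z l := fun l => by simp [u, t, hy0]
  refine ufd_of_hom (k := ℂ) (Fin.cons t u : Fin (n + 1) → A) (le_antisymm (fun f hf => ?_) ?_)
    (fun r => ⟨ε r, (hm _).2 (by rw [map_sub, sub_eq_zero]; exact (hκ _).symm)⟩) H fun i => ?_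
  · obtain ⟨c, hc⟩ := h3 _ (h0 f)
    rw [show ev (constantCoeff (f : F⟦X⟧)) x = 0 from (hm f).1 hf, map_zero, zero_add] at hc
    choose g hg hg0 using fun l => ho (c l) (c l).2
    obtain ⟨w, hw⟩ : (X : F⟦X⟧) ∣ (f - ∑ l, ⟨g l, hg l⟩ * u l : A) :=
      X_dvd_iff.2 (by simp [hu0, hg0, hc])
    have h4 : f = t * ⟨w, hs w (hw ▸ SetLike.coe_mem _)⟩ + ∑ l, ⟨g l, hg l⟩ * u l :=
      sub_eq_iff_eq_add.1 (Subtype.ext hw)
    rw [h4]
    exact add_mem (Ideal.mul_mem_right _ _ (Ideal.subset_span ⟨0, rfl⟩))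
      (Ideal.sum_mem _ fun l _ => Ideal.mul_mem_left _ _ (Ideal.subset_span ⟨l.succ, rfl⟩))
  · rw [Ideal.span_le]
    rintro _ ⟨i, rfl⟩
    refine (hm _).2 (Fin.cases ?_ (fun l => ?_) i)
    · change (lp x).v (constantCoeff X) = 0
      simp
    · change ev (constantCoeff (u l : F⟦X⟧)) x = 0
      rw [hu0, ← hh, h1, MvPowerSeries.constantCoeff_X]
  · refine Fin.cases ?_ (fun l => ?_) i
    · change (MvPowerSeries.finSuccEquiv ℂ n).symm (map h (L t)) - _ ∈ _
      have h4 : L t = X := by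
        ext j
        rw [hL]
        change coeff j (X : F⟦X⟧) = _
        rw [coeff_X, coeff_X]
        split_ifs <;> rfl
      rw [h4, map_X, ← MvPowerSeries.finSuccEquiv_X_zero, AlgEquiv.symm_apply_apply, sub_self]
      exact zero_mem _
    · change (MvPowerSeries.finSuccEquiv ℂ n).symm (map h (L (u l))) - _ ∈ _
      rw [← (MvPowerSeries.finSuccEquiv ℂ n).symm_apply_apply (MvPowerSeries.X l.succ), ← map_sub,
        MvPowerSeries.finSuccEquiv_X_succ]
      refine symm_mem ?_ ?_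
      · rw [map_sub, coeff_map, hL, coeff_zero_C, ← h1, sub_eq_zero]
        exact congrArg h (Subtype.ext (by simpa using hu0 l))
      · rw [map_sub, coeff_map, hL, coeff_succ_C, sub_zero, hh]
        have h4 : coeff 1 (u l : F⟦X⟧) = coeff 1 (y l) - algebraMap ℂ F (ev (coeff 1 (y l)) x) := by
          simp [u, t, κ]
        change (lp x).v (coeff 1 (u l : F⟦X⟧)) = 0
        rw [h4, LP.v_sub (hA (hy l) 1) ((lp x).O.algebraMap_mem _), (lp x).v_alg]
        exact sub_self _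

theorem ufdStmt : Alg44.UfdStmt := fun _ _ _ _ b x A hA _ hX hC hs ho hu =>
  ufd_ser b x A hA hX hC hs ho hu

end Crest.Agent.X262.Ufd9
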