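import Crest.Agent.R183.CohenEval
import Crest.Agent.R271.UfdC_243

/-!
# Row 262, G4 / UFD (helper9), part 1: a criterion for factoriality

* `aeval_sub_mem` : forms of degree `d` respect congruences modulo `M ^ 2`;
* `form_eq_zero`  : the parameters are analytically independent;
* `ufd_of_hom`    : a Noetherian local domain with residue field `k` whose maximal ideal is generated
  by `n` elements which expand to the variables of `k⟦X₁, …, Xₙ⟧` is factorial.
-/

set_option autoImplicit false

noncomputable section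

namespace Crest.Agent.X262.Ufd9

open IsLocalRing
open Crest.Agent.R183.Cohen Crest.Agent.R271.UFD243

section Form

variable {k S σ : Type*} [CommRing k] [CommRing S] [Algebra k S] {M : Ideal S}

/-- `a` and `b` have the same initial form of degree `d` -/
def Cg (M : Ideal S) (d : ℕ) (a b : S) : Prop := a ∈ M ^ d ∧ b ∈ M ^ d ∧ a - b ∈ M ^ (d + 1)

theorem Cg.mul {d e : ℕ} {a b a' b' : S} (h : Cg M d a b) (h' : Cg M e a' b') :
    Cg M (d + e) (a * a') (b * b') := by
  refine ⟨pow_add M d e ▸ Ideal.mul_mem_mul h.1 h'.1,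
    pow_add M d e ▸ Ideal.mul_mem_mul h.2.1 h'.2.1, ?_⟩
  rw [show a * a' - b * b' = (a - b) * a' + b * (a' - b') by ring]
  refine add_mem ?_ ?_
  · rw [show d + e + 1 = d + 1 + e by ring, pow_add]
    exact Ideal.mul_mem_mul h.2.2 h'.1
  · rw [add_assoc, pow_add]
    exact Ideal.mul_mem_mul h.2.1 h'.2.2

theorem Cg.rfl0 (a : S) : Cg M 0 a a := ⟨by simp, by simp, by simp⟩

theorem Cg.pow {a b : S} (h : Cg M 1 a b) (m : ℕ) : Cg M m (a ^ m) (b ^ m) := by
  induction m with
  | zero => simpa using Cg.rfl0 (M := M) 1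
  | succ m ih => rw [pow_succ, pow_succ]; exact ih.mul h

theorem Cg.prod {u w : σ → S} (h : ∀ i, Cg M 1 (u i) (w i)) (s : σ →₀ ℕ) :
    Cg M s.degree (s.prod fun i m => u i ^ m) (s.prod fun i m => w i ^ m) := by
  induction s using Finsupp.induction_linear with
  | zero => simpa using Cg.rfl0 (M := M) 1
  | add f g hf hg =>
    rw [map_add, Finsupp.prod_add_index' (by simp) (by simp [pow_add]),
      Finsupp.prod_add_index' (by simp) (by simp [pow_add])]
    exact hf.mul hg
  | single i m => simpa using (h i).pow m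

theorem aeval_sub_mem {u w : σ → S} (h : ∀ i, Cg M 1 (u i) (w i)) {d : ℕ} {q : MvPolynomial σ k}
    (hq : q.IsHomogeneous d) : MvPolynomial.aeval u q - MvPolynomial.aeval w q ∈ M ^ (d + 1) := by
  rw [q.as_sum, map_sum, map_sum, ← Finset.sum_sub_distrib]
  refine Ideal.sum_mem _ fun s hs => ?_
  have h1 : s.degree = d := by
    rw [Finsupp.degree_eq_weight_one]
    exact hq (MvPolynomial.mem_support_iff.1 hs)
  rw [MvPolynomial.aeval_monomial, MvPolynomial.aeval_monomial, ← mul_sub, ← h1]
  exact Ideal.mul_mem_left _ _ (Cg.prod h s).2.2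

end Form

section Ser

open MvPowerSeries

variable {k σ : Type*} [CommRing k]

/-- the ideal of the variables -/
abbrev vars (σ k : Type*) [CommRing k] : Ideal (MvPowerSeries σ k) :=
  Ideal.span (Set.range (X : σ → MvPowerSeries σ k))

theorem const_of_mem {f : MvPowerSeries σ k} (h : f ∈ vars σ k) : constantCoeff f = 0 := by
  have : vars σ k ≤ RingHom.ker (constantCoeff (σ := σ) (R := k)) := by
    rw [Ideal.span_le]
    rintro _ ⟨i, rfl⟩
    simp
  exact this h

theorem le_order_of_mem {N : ℕ} {f : MvPowerSeries σ k} (h : f ∈ vars σ k ^ N) :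
    (N : ℕ∞) ≤ f.order := by
  induction N generalizing f with
  | zero => simp
  | succ N ih =>
    rw [pow_succ] at h
    refine Submodule.mul_induction_on h (fun a ha b hb => ?_) fun a b ha hb => ?_
    · refine le_trans ?_ le_order_mul
      rw [Nat.cast_succ]
      exact add_le_add (ih ha) (one_le_order_iff_constCoeff_eq_zero.2 (const_of_mem hb))
    · exact (le_min ha hb).trans min_order_le_add

theorem coeff_of_mem {N : ℕ} {f : MvPowerSeries σ k} (h : f ∈ vars σ k ^ N) {s : σ →₀ ℕ}
    (hs : s.degree < N) : coeff s f = 0 :=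
  coeff_of_lt_order (lt_of_lt_of_le (by exact_mod_cast hs) (le_order_of_mem h))

theorem aeval_X (q : MvPolynomial σ k) :
    MvPolynomial.aeval (X : σ → MvPowerSeries σ k) q = (q : MvPowerSeries σ k) := by
  have : (MvPolynomial.aeval (X : σ → MvPowerSeries σ k) : MvPolynomial σ k →ₐ[k] _) =
      MvPolynomial.coeToMvPowerSeries.algHom k := by
    ext i : 1
    simp
  rw [this]
  simp

/-- analytic independence of the parameters -/
theorem form_eq_zero {R : Type*} [CommRing R] [Algebra k R] {x : σ → R}
    (H : R →ₐ[k] MvPowerSeries σ k) (hH : ∀ i, H (x i) - X i ∈ vars σ k ^ 2) {d : ℕ}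
    {q : MvPolynomial σ k} (hq : q.IsHomogeneous d)
    (h : MvPolynomial.aeval x q ∈ Ideal.span (Set.range x) ^ (d + 1)) : q = 0 := by
  have h0 : ∀ i, (X i : MvPowerSeries σ k) ∈ vars σ k := fun i => Ideal.subset_span ⟨i, rfl⟩
  have h1 : ∀ i, H (x i) ∈ vars σ k := fun i => by
    have := add_mem (Ideal.pow_le_self two_ne_zero (hH i)) (h0 i)
    rwa [sub_add_cancel] at this
  have h2 : (Ideal.span (Set.range x)).map (H : R →+* MvPowerSeries σ k) ≤ vars σ k := by
    rw [Ideal.map_span, Ideal.span_le]
    rintro _ ⟨_, ⟨i, rfl⟩, rfl⟩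
    exact h1 i
  have h3 : MvPolynomial.aeval (fun i => H (x i)) q ∈ vars σ k ^ (d + 1) := by
    have h4 := Ideal.mem_map_of_mem (H : R →+* MvPowerSeries σ k) h
    rw [Ideal.map_pow] at h4
    rw [← MvPolynomial.comp_aeval_apply]
    exact Ideal.pow_right_mono h2 _ h4
  have h5 := sub_mem h3 (aeval_sub_mem (M := vars σ k) (u := fun i => H (x i)) (w := X)
    (fun i => ⟨by simpa using h1 i, by simpa using h0 i, hH i⟩) hq)
  rw [sub_sub_cancel, aeval_X] at h5
  ext s
  by_cases hs : s.degree = d
  · rw [← MvPolynomial.coeff_coe, coeff_of_mem h5 (by omega), MvPolynomial.coeff_zero]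
  · rw [hq.coeff_eq_zero hs, MvPolynomial.coeff_zero]

end Ser

open MvPowerSeries in
/-- **the criterion** -/
theorem ufd_of_hom {k R : Type*} [Field k] [Infinite k] [CommRing R] [IsDomain R] [IsLocalRing R]
    [IsNoetherianRing R] [Algebra k R] {n : ℕ} (x : Fin n → R)
    (hm : maximalIdeal R = Ideal.span (Set.range x))
    (hk : ∀ r : R, ∃ c : k, r - algebraMap k R c ∈ maximalIdeal R)
    (H : R →ₐ[k] MvPowerSeries (Fin n) k) (hH : ∀ i, H (x i) - X i ∈ vars (Fin n) k ^ 2) :
    UniqueFactorizationMonoid R := by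
  let S := AdicCompletion (maximalIdeal R) R
  have hJ : maximalIdeal S = (maximalIdeal R).map (algebraMap R S) :=
    AdicCompletion.maximalIdeal_eq_map
  have hJ' : maximalIdeal S = (Ideal.span (Set.range x)).map (algebraMap R S) :=
    hJ.trans (congrArg _ hm)
  have ht : ∀ i, algebraMap R S (x i) ∈ maximalIdeal S := fun i =>
    hJ' ▸ Ideal.mem_map_of_mem _ (Ideal.subset_span ⟨i, rfl⟩)
  let ψ := psEval (maximalIdeal S) ((algebraMap R S).comp (algebraMap k R))
    (fun i => algebraMap R S (x i)) ht
  have hI : (vars (Fin n) k).map ψ = maximalIdeal S := by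
    rw [hJ']
    simp only [Ideal.map_span, ← Set.range_comp]
    congr 2
    funext i
    exact psEval_X _ _ _ ht i
  have hs : Function.Surjective ψ := by
    have : IsHausdorff ((vars (Fin n) k).map ψ) S := hI ▸ inferInstance
    refine surjective_of_mk_map_comp_surjective (I := vars (Fin n) k) ψ fun y => ?_
    obtain ⟨y, rfl⟩ := Ideal.Quotient.mk_surjective y
    obtain ⟨r, hr⟩ := (AdicCompletion.residueField_map_bijective R).2 (residue S y)
    obtain ⟨r, rfl⟩ := residue_surjective r
    obtain ⟨c, hc⟩ := hk r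
    refine ⟨C c, ?_⟩
    rw [RingHom.comp_apply, Ideal.Quotient.eq, hI, psEval_C]
    have h1 : algebraMap R S r - y ∈ maximalIdeal S := by
      rw [← residue_eq_zero_iff, map_sub, ← hr, ResidueField.map_residue, sub_self]
    have h2 := Ideal.mem_map_of_mem (algebraMap R S) hc
    rw [← hJ, map_sub] at h2
    have h3 := sub_mem h1 h2
    rwa [sub_sub_sub_cancel_left] at h3
  have hff : Module.FaithfullyFlat R S := Module.FaithfullyFlat.of_flat_of_isLocalHom
  have hi : Function.Injective ψ := by
    rw [injective_iff_map_eq_zero]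
    intro f hf
    have key : ∀ N : ℕ, ∀ s : Fin n →₀ ℕ, s.degree < N → coeff s f = 0 := by
      intro N
      induction N with
      | zero => intro s hs; omega
      | succ N ih =>
        have h1 : (truncTotal (N + 1) f).IsHomogeneous N := by
          intro s hs
          suffices h : s.degree = N by rwa [Finsupp.degree_eq_weight_one] at h
          by_contra hne
          rcases lt_or_gt_of_ne hne with h | h
          · exact hs (by rw [coeff_truncTotal _ (by omega), ih s h])
          · exact hs (coeff_truncTotal_eq_zero _ (by omega))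
        have h2 := mk_psEval (maximalIdeal S) ((algebraMap R S).comp (algebraMap k R))
          (fun i => algebraMap R S (x i)) ht (N + 1) f
        rw [show psEval _ _ _ ht f = 0 from hf, map_zero, eq_comm,
          Ideal.Quotient.eq_zero_iff_mem, ← MvPolynomial.comp_eval₂Hom, RingHom.comp_apply, hJ',
          ← Ideal.map_pow, ← Ideal.mem_comap, Ideal.comap_map_eq_self_of_faithfullyFlat] at h2
        have h3 := form_eq_zero H hH h1 h2
        intro s hs
        rw [← coeff_truncTotal _ hs, h3, MvPolynomial.coeff_zero]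
    ext s
    exact key _ s (Nat.lt_succ_self _)
  let e := RingEquiv.ofBijective ψ ⟨hi, hs⟩
  have : IsDomain S := e.symm.toMulEquiv.isDomain _
  have := mvPowerSeries_ufd (k := k) n
  have : UniqueFactorizationMonoid S := e.toMulEquiv.uniqueFactorizationMonoid this
  exact ufd_of_flat_local R S

end Crest.Agent.X262.Ufd9
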